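import Vale.Agent.P101.Drop.Extend
import Vale.Agent.P101.Intertwine
import Vale.Agent.P101.Limit.JiangSu
import Vale.Agent.P101.Limit.Tensor

/-!
The tensor product with the Jiang-Su algebra as the limit of the dimension drop algebras with
coefficients, with its two legs.
-/

set_option maxSynthPendingDepth 3

open Filter Topology
open scoped ComplexOrder

noncomputable section

universe u

namespace Vale.Agent.P101.Tensor

open Drop JiangSu

variable (A : Type u) [CStarAlgebra A] [PartialOrder A] [StarOrderedRing A]

/-- The system with coefficients. -/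
def sys : Limit.Sys.{u} :=
  { D := fun j => dropAlg (p j) (q j) A
    conn := fun j => extend A (conn j)
    injective := fun j => extend_injective (conn_injective j) }

/-- A stage of the system with coefficients in its limit. -/
def inclA (j : ℕ) : dropAlg (p j) (q j) A →⋆ₐ[ℂ] (sys A).Z := (sys A).incl j

theorem inclA_extend (j : ℕ) (x : dropAlg (p j) (q j) A) :
    inclA A (j + 1) (extend A (conn j) x) = inclA A j x := (sys A).incl_conn j x

theorem norm_inclA (j : ℕ) (x : dropAlg (p j) (q j) A) : ‖inclA A j x‖ = ‖x‖ :=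
  (sys A).norm_incl j x

theorem dense_inclA : Dense (⋃ j, Set.range (inclA A j)) := (sys A).dense_iUnion_range

theorem dense_inc : Dense (⋃ j, Set.range (Limit.jsSys.inc j)) :=
  Limit.jsSys.toSys.dense_iUnion_range

/-- The copy of a stage of the scalar system. -/
def stage (j : ℕ) : dropAlg (p j) (q j) ℂ →⋆ₐ[ℂ] (sys A).Z :=
  (inclA A j).comp (tensorR A)

theorem stage_conn (j : ℕ) (z : dropAlg (p j) (q j) ℂ) :
    stage A (j + 1) (conn j z) = stage A j z := by
  change inclA A (j + 1) (tensor 1 (conn j z)) = inclA A j (tensor 1 z)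
  rw [← extend_tensor (conn j) 1 z]
  exact inclA_extend A j _

/-- The copy of the coefficients. -/
def alpha : A →⋆ₐ[ℂ] (sys A).Z := (inclA A 0).comp (tensorL (p 0) (q 0))

theorem alpha_eq (j : ℕ) (a : A) : alpha A a = inclA A j (tensor a 1) := by
  induction j with
  | zero => rfl
  | succ j ih =>
    rw [ih, ← inclA_extend A j, extend_tensor, map_one]

theorem norm_alpha (a : A) : ‖alpha A a‖ = ‖a‖ :=
  (norm_inclA A 0 _).trans (NonUnitalStarAlgHom.norm_map (tensorL (p 0) (q 0)) tensorL_injective a)

theorem alpha_mul_stage (j : ℕ) (a : A) (z : dropAlg (p j) (q j) ℂ) :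
    alpha A a * stage A j z = inclA A j (tensor a z) := by
  rw [alpha_eq A j a, stage, StarAlgHom.comp_apply, ← map_mul, tensorR_apply, tensor_mul, mul_one,
    one_mul]

theorem commute_alpha_stage (j : ℕ) (a : A) (z : dropAlg (p j) (q j) ℂ) :
    Commute (alpha A a) (stage A j z) := by
  rw [alpha_eq A j a]
  exact (commute_tensorL_tensorR a z).map (inclA A j)

/-- The copy of the Jiang-Su algebra. -/
def beta : Limit.JS →⋆ₐ[ℂ] (sys A).Z := Limit.jsSys.toSys.lift (stage A) (stage_conn A)

theorem beta_incl (j : ℕ) (z : dropAlg (p j) (q j) ℂ) :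
    beta A (Limit.jsSys.inc j z) = stage A j z :=
  Limit.jsSys.toSys.lift_incl (stage A) (stage_conn A) j z

theorem commute_alpha_beta (a : A) (z : Limit.JS) : Commute (alpha A a) (beta A z) := by
  have hc : Continuous (beta A) := continuous_hom _
  refine dense_inc.induction (P := fun z => Commute (alpha A a) (beta A z)) ?_ ?_ z
  · intro w hw
    obtain ⟨j, y, rfl⟩ := Set.mem_iUnion.1 hw
    have h := beta_incl A j y
    show Commute (alpha A a) (beta A (Limit.jsSys.inc j y))
    exact h.symm ▸ commute_alpha_stage A j a y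
  · exact isClosed_eq (continuous_const.mul hc) (hc.mul continuous_const)

/-- The products of the two legs span a dense subspace. -/
theorem dense_span : Dense ((⨆ j, Submodule.span ℂ (Set.range fun x : A × dropAlg (p j) (q j) ℂ =>
    alpha A x.1 * stage A j x.2) : Submodule ℂ (sys A).Z) : Set (sys A).Z) := by
  rw [← dense_closure]
  refine (dense_inclA A).mono (Set.iUnion_subset fun j => ?_)
  rintro _ ⟨x, rfl⟩
  refine mem_closure_of_tendsto
    (((continuous_hom (inclA A j)).tendsto x).comp (tendsto_bern x))
    (Eventually.of_forall fun n => ?_)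
  simp only [Function.comp_apply, bern, map_sum]
  refine sum_mem fun k _ => sum_mem fun μ _ => sum_mem fun ν _ => ?_
  rw [← alpha_mul_stage]
  exact Submodule.mem_iSup_of_mem j (Submodule.subset_span ⟨⟨_, _⟩, rfl⟩)

theorem dense_adjoin : Dense (StarAlgebra.adjoin ℂ
    (Set.range (alpha A) ∪ Set.range (beta A)) : Set (sys A).Z) := by
  refine (dense_span A).mono ?_
  change (⨆ j, Submodule.span ℂ _ : Submodule ℂ (sys A).Z) ≤ (StarAlgebra.adjoin ℂ
    (Set.range (alpha A) ∪ Set.range (beta A))).toSubalgebra.toSubmodule
  refine iSup_le fun j => Submodule.span_le.2 ?_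
  rintro _ ⟨⟨a, z⟩, rfl⟩
  change alpha A a * stage A j z ∈ StarAlgebra.adjoin ℂ (Set.range (alpha A) ∪ Set.range (beta A))
  exact mul_mem (StarAlgebra.subset_adjoin ℂ _ (Or.inl ⟨a, rfl⟩))
    (StarAlgebra.subset_adjoin ℂ _ (Or.inr ⟨_, beta_incl A j z⟩))

theorem isTensor : IsTensor (alpha A) (beta A) := by
  refine ⟨commute_alpha_beta A, Limit.tensor_injective (commute_alpha_beta A) ?_, dense_adjoin A⟩
  exact AddMonoidHomClass.isometry_of_norm (alpha A) (norm_alpha A) |>.injective

theorem separableSpace_limit [TopologicalSpace.SeparableSpace A] :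
    TopologicalSpace.SeparableSpace (sys A).Z := by
  have h : TopologicalSpace.IsSeparable (⋃ j, Set.range (inclA A j)) :=
    TopologicalSpace.IsSeparable.iUnion fun j => by
      have : TopologicalSpace.SeparableSpace (dropAlg (p j) (q j) A) := separableSpace_dropAlg
      exact TopologicalSpace.isSeparable_range (continuous_hom (inclA A j))
  rw [← TopologicalSpace.isSeparable_univ_iff, ← (dense_inclA A).closure_eq]
  exact h.closure

/-- If the coefficients can be intertwined with the tensor product, they absorb the Jiang-Su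
algebra. -/
theorem isZStable_of_canIntertwine [TopologicalSpace.SeparableSpace A]
    (h : CanIntertwine (alpha A)) : IsZStable A Limit.JS := by
  have := separableSpace_limit A
  obtain ⟨e⟩ := exists_equiv_of_canIntertwine (alpha A) (norm_alpha A) h
  obtain ⟨hcomm, hinj, hdense⟩ := isTensor A
  let f : (sys A).Z →⋆ₐ[ℂ] A := e.symm
  refine ⟨f.comp (alpha A), f.comp (beta A), fun a z => (hcomm a z).map f, fun n a z hz h0 => ?_, ?_⟩
  · refine hinj n a z hz (e.symm.injective ((map_sum f _ _).trans (Eq.trans ?_ (h0.trans (map_zero f).symm))))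
    simp only [map_mul, StarAlgHom.comp_apply]
  · have hr : DenseRange f := e.symm.surjective.denseRange
    refine (hr.dense_image (continuous_hom f) hdense).mono ?_
    change _ ⊆ ((StarAlgebra.adjoin ℂ
      (Set.range (f.comp (alpha A)) ∪ Set.range (f.comp (beta A)))) : Set A)
    rw [StarAlgHom.coe_comp, StarAlgHom.coe_comp, Set.range_comp, Set.range_comp, ← Set.image_union,
      ← StarAlgHom.map_adjoin, StarSubalgebra.coe_map]

end Vale.Agent.P101.Tensor
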