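import Vale.Agent.P101.Absorb
import Vale.Agent.P101.Tensor.Limit

/-!
Homomorphisms of every dimension drop algebra into the central sequence algebra make an algebra
absorb the Jiang-Su algebra.
-/

set_option maxSynthPendingDepth 3

open scoped ComplexOrder

noncomputable section

namespace Vale.Agent.P101.Tensor

open JiangSu

/-- If every stage maps into `F_ω(A)`, then `A ≅ A ⊗ Z`. -/
theorem isZStable_of_homs {A : Type*} [CStarAlgebra A] [TopologicalSpace.SeparableSpace A]
    (ω : Ultrafilter ℕ) (φ : ∀ j, Nonempty (Drop.dropAlg (p j) (q j) ℂ →⋆ₐ[ℂ] FO A ω)) :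
    IsZStable A Limit.JS := by
  let := CStarAlgebra.spectralOrder A
  let := CStarAlgebra.spectralOrderedRing A
  exact isZStable_of_canIntertwine A (Absorb.canIntertwine_of_homs (alpha A) (stage A)
    (fun a j z => commute_alpha_stage A j a z) (stage_conn A) (dense_span A) φ)

end Vale.Agent.P101.Tensor
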